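import Vale.Agent.P263.FR.PT

/-!
# P263, cobordism invariance: relative regular approximation
-/

open Set Topology Filter

namespace Vale.Agent.P263C39

open Vale.Agent.P263.FR

theorem isOpen_surj {E F : Type} [NormedAddCommGroup E] [NormedSpace ℝ E] [NormedAddCommGroup F]
    [NormedSpace ℝ F] [FiniteDimensional ℝ F] :
    IsOpen {L : E →L[ℝ] F | Function.Surjective L} := by
  have : CompleteSpace F := FiniteDimensional.complete ℝ F
  rw [isOpen_iff_mem_nhds]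
  intro L hL
  obtain ⟨R, hR⟩ := (L : E →ₗ[ℝ] F).exists_rightInverse_of_surjective
    (LinearMap.range_eq_top.2 hL)
  have h1 : Continuous fun L' : E →L[ℝ] F => L'.comp (LinearMap.toContinuousLinearMap R) :=
    continuous_id.clm_comp continuous_const
  have h2 : L.comp (LinearMap.toContinuousLinearMap R) = 1 :=
    ContinuousLinearMap.ext fun y => LinearMap.congr_fun hR y
  have h3 : {x : F →L[ℝ] F | IsUnit x} ∈ 𝓝 (L.comp (LinearMap.toContinuousLinearMap R)) := by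
    rw [h2]
    exact Units.isOpen.mem_nhds isUnit_one
  filter_upwards [h1.continuousAt.preimage_mem_nhds h3] with L' hL'
  obtain ⟨u, hu⟩ := hL'
  intro y
  refine ⟨R ((↑u⁻¹ : F →L[ℝ] F) y), ?_⟩
  have h4 : ((u : F →L[ℝ] F) * (↑u⁻¹ : F →L[ℝ] F)) y = y := by rw [Units.mul_inv]; rfl
  rw [hu] at h4
  exact h4

variable {m K : ℕ}

/-- the cut-off perturbation -/
noncomputable def cp (f : (Fin m → ℝ) → (Fin K → ℝ)) (χ : (Fin m → ℝ) → ℝ)
    (p : (Fin K → ℝ) × (Fin K → Fin m → ℝ)) (x : Fin m → ℝ) : Fin K → ℝ :=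
  fun i => f x i + χ x * (p.1 i + ∑ k, p.2 i k * x k)

theorem cp_zero (f : (Fin m → ℝ) → (Fin K → ℝ)) (χ : (Fin m → ℝ) → ℝ) : cp f χ 0 = f := by
  funext x i
  simp [cp]

theorem contDiff_cp {f : (Fin m → ℝ) → (Fin K → ℝ)} {χ : (Fin m → ℝ) → ℝ} {k : WithTop ℕ∞}
    (hf : ContDiff ℝ k f) (hχ : ContDiff ℝ k χ) :
    ContDiff ℝ k fun q : ((Fin K → ℝ) × (Fin K → Fin m → ℝ)) × (Fin m → ℝ) => cp f χ q.1 q.2 := by
  rw [contDiff_pi]
  intro i
  show ContDiff ℝ k fun q : ((Fin K → ℝ) × (Fin K → Fin m → ℝ)) × (Fin m → ℝ) =>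
    f q.2 i + χ q.2 * (q.1.1 i + ∑ k, q.1.2 i k * q.2 k)
  refine ((contDiff_pi.1 hf i).comp contDiff_snd).add ((hχ.comp contDiff_snd).mul
    (ContDiff.add ?_ (ContDiff.sum fun j _ => ContDiff.mul ?_ ?_)))
  · exact (contDiff_apply ℝ ℝ i).comp (contDiff_fst.comp contDiff_fst)
  · exact (contDiff_apply ℝ ℝ j).comp ((contDiff_apply ℝ (Fin m → ℝ) i).comp
      (contDiff_snd.comp contDiff_fst))
  · exact (contDiff_apply ℝ ℝ j).comp contDiff_snd

/-- **Relative regular perturbation** of a smooth map. -/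
theorem rel_pert {f : (Fin m → ℝ) → (Fin K → ℝ)} (hf : ContDiff ℝ ((⊤ : ℕ∞) : WithTop ℕ∞) f)
    {C A O : Set (Fin m → ℝ)} (hC : IsCompact C) (hA : IsClosed A) (hO : IsOpen O) (hAO : A ⊆ O)
    (hreg : ∀ x ∈ C, x ∈ O → f x = 0 → Function.Surjective (fderiv ℝ f x)) {ε : ℝ} (hε : 0 < ε) :
    ∃ g : (Fin m → ℝ) → (Fin K → ℝ), ContDiff ℝ ((⊤ : ℕ∞) : WithTop ℕ∞) g ∧
      (∀ x ∈ C, ‖g x - f x‖ < ε) ∧ (∀ x ∈ A, g x = f x) ∧
        ∀ x ∈ C, g x = 0 → Function.Surjective (fderiv ℝ g x) := by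
  obtain ⟨O₃, hO₃, hA₃, h₃⟩ := normal_exists_closure_subset hA hO hAO
  obtain ⟨χ, hχ0, hχ1, -⟩ := exists_contMDiffMap_zero_one_of_isClosed
    (modelWithCornersSelf ℝ (Fin m → ℝ)) (n := (⊤ : ℕ∞)) hA hO₃.isClosed_compl
    (disjoint_compl_right_iff_subset.2 hA₃)
  have hχ : ContDiff ℝ ((⊤ : ℕ∞) : WithTop ℕ∞) χ := χ.contMDiff.contDiff
  have h1 := contDiff_cp hf hχ
  have h2 : Continuous fun q : ((Fin K → ℝ) × (Fin K → Fin m → ℝ)) × (Fin m → ℝ) =>
      fderiv ℝ (cp f χ q.1) q.2 := by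
    refine Continuous.fderiv (𝕜 := ℝ) (n := ((⊤ : ℕ∞) : WithTop ℕ∞))
      (f := fun q : ((Fin K → ℝ) × (Fin K → Fin m → ℝ)) × (Fin m → ℝ) => cp f χ q.1) ?_
      continuous_snd (by simp)
    exact h1.comp ((contDiff_fst.comp contDiff_fst).prodMk contDiff_snd)
  have h3 : ∀ᶠ p in 𝓝 (0 : (Fin K → ℝ) × (Fin K → Fin m → ℝ)), ∀ x ∈ C ∩ closure O₃,
      cp f χ p x ≠ 0 ∨ Function.Surjective (fderiv ℝ (cp f χ p) x) := by
    refine (hC.inter_right isClosed_closure).eventually_forall_of_forall_eventually fun y hy => ?_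
    have h4 : IsOpen {q : ((Fin K → ℝ) × (Fin K → Fin m → ℝ)) × (Fin m → ℝ) |
        cp f χ q.1 q.2 ≠ 0 ∨ Function.Surjective (fderiv ℝ (cp f χ q.1) q.2)} :=
      (isOpen_ne.preimage h1.continuous).union (isOpen_surj.preimage h2)
    refine h4.mem_nhds ?_
    show cp f χ 0 y ≠ 0 ∨ Function.Surjective (fderiv ℝ (cp f χ 0) y)
    rw [cp_zero]
    by_cases h0 : f y = 0
    · exact Or.inr (hreg y hy.1 (h₃ hy.2) h0)
    · exact Or.inl h0
  have h4 : ∀ᶠ p in 𝓝 (0 : (Fin K → ℝ) × (Fin K → Fin m → ℝ)), ∀ x ∈ C,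
      ‖cp f χ p x - f x‖ < ε := by
    refine hC.eventually_forall_of_forall_eventually fun y _ => ?_
    have h5 : IsOpen {q : ((Fin K → ℝ) × (Fin K → Fin m → ℝ)) × (Fin m → ℝ) |
        ‖cp f χ q.1 q.2 - f q.2‖ < ε} :=
      isOpen_lt (h1.continuous.sub (hf.continuous.comp continuous_snd)).norm continuous_const
    refine h5.mem_nhds ?_
    show ‖cp f χ 0 y - f y‖ < ε
    rwa [cp_zero, sub_self, norm_zero]
  obtain ⟨δ, hδ, h5⟩ := Metric.eventually_nhds_iff.1 (h3.and h4)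
  obtain ⟨b, B, hb, hB, h6⟩ := exists_regular (hf.of_le
    (WithTop.coe_le_coe.2 (le_top : (2 : ℕ∞) ≤ ⊤))) hδ
  obtain ⟨h7, h8⟩ := h5 (y := (b, B)) (by
    rw [dist_zero_right, Prod.norm_def]
    exact max_lt hb hB)
  refine ⟨cp f χ (b, B), h1.comp (contDiff_const.prodMk contDiff_id), h8, fun x hx => ?_,
    fun x hx h0 => ?_⟩
  · funext i
    have h9 : χ x = 0 := hχ0 hx
    simp [cp, h9]
  · by_cases h9 : x ∈ closure O₃
    · exact (h7 x ⟨hx, h9⟩).resolve_left (not_not.2 h0)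
    · have h10 : cp f χ (b, B) =ᶠ[𝓝 x] pert f b B := by
        filter_upwards [isClosed_closure.isOpen_compl.mem_nhds h9] with y hy
        have h11 : χ y = 1 := hχ1 fun h => hy (subset_closure h)
        funext i
        simp [cp, pert, h11, add_assoc]
      rw [h10.fderiv_eq]
      exact h6 x (h10.eq_of_nhds.symm.trans h0)

/-- **Relative regular approximation** of a continuous map which is smooth and regular on an open
neighbourhood `O` of the closed set `A`. -/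
theorem rel_approx {a : (Fin m → ℝ) → (Fin K → ℝ)} (ha : Continuous a)
    {C A O : Set (Fin m → ℝ)} (hC : IsCompact C) (hA : IsClosed A) (hO : IsOpen O) (hAO : A ⊆ O)
    (hs : ContDiffOn ℝ ((⊤ : ℕ∞) : WithTop ℕ∞) a O)
    (hreg : ∀ x ∈ C, x ∈ O → a x = 0 → Function.Surjective (fderiv ℝ a x)) {ε : ℝ} (hε : 0 < ε) :
    ∃ g : (Fin m → ℝ) → (Fin K → ℝ), ContDiff ℝ ((⊤ : ℕ∞) : WithTop ℕ∞) g ∧
      (∀ x ∈ C, ‖g x - a x‖ < ε) ∧ (∀ x ∈ A, g x = a x) ∧
        ∀ x ∈ C, g x = 0 → Function.Surjective (fderiv ℝ g x) := by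
  obtain ⟨O₁, hO₁, hA₁, h₁⟩ := normal_exists_closure_subset hA hO hAO
  obtain ⟨f, hf, h2, h3, -⟩ := Continuous.exists_contDiff_approx_and_eqOn (⊤ : ℕ∞) ha
    (continuous_const (y := ε / 2)) (fun _ => by linarith) isClosed_closure
    (hO.mem_nhdsSet.2 h₁) hs
  obtain ⟨g, hg, h4, h5, h6⟩ := rel_pert hf hC hA hO₁ hA₁ (fun x hx hx₁ h0 => by
    have h7 : f =ᶠ[𝓝 x] a := by
      filter_upwards [hO₁.mem_nhds hx₁] with y hy using h3 (subset_closure hy)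
    rw [h7.fderiv_eq]
    exact hreg x hx (h₁ (subset_closure hx₁)) (h7.eq_of_nhds.symm.trans h0))
    (half_pos hε)
  refine ⟨g, hg, fun x hx => ?_, fun x hx => (h5 x hx).trans (h3 (subset_closure (hA₁ hx))), h6⟩
  have h7 := h2 x
  rw [dist_eq_norm] at h7
  calc ‖g x - a x‖ = ‖(g x - f x) + (f x - a x)‖ := by abel_nf
    _ ≤ ‖g x - f x‖ + ‖f x - a x‖ := norm_add_le _ _
    _ < ε := by linarith [h4 x hx]

end Vale.Agent.P263C39
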