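import Vale.Agent.P263C39.Rel
import Vale.Agent.P263C25.Rows

/-!
# P263, cobordism invariance: the row `REL`
-/

open Set Topology Filter

namespace Vale.Agent.P263C39

theorem rel : P263C25.REL := by
  intro E _ _ _ K C W A a hC hW hA hAW haC haW hreg ε hε
  obtain ⟨W₁, hW₁, hA₁, h₁⟩ := normal_exists_closure_subset hA.isClosed hW hAW
  have hS : IsClosed (C ∪ closure W₁) := hC.isClosed.union isClosed_closure
  have haS : ContinuousOn a (C ∪ closure W₁) :=
    haC.union_of_isClosed (haW.continuousOn.mono h₁) hC.isClosed isClosed_closure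
  obtain ⟨θ, hθ⟩ := ContinuousMap.exists_restrict_eq hS
    (⟨(C ∪ closure W₁).domRestrict a, continuousOn_iff_continuous_domRestrict.1 haS⟩ :
      C((C ∪ closure W₁ : Set E), Fin K → ℝ))
  have hθ' : ∀ x ∈ C ∪ closure W₁, θ x = a x := fun x hx => by
    have := DFunLike.congr_fun hθ ⟨x, hx⟩
    exact this
  have hθ₁ : ∀ x ∈ W₁, θ x = a x := fun x hx => hθ' x (Or.inr (subset_closure hx))
  obtain ⟨e⟩ : Nonempty (E ≃L[ℝ] (Fin (Module.finrank ℝ E) → ℝ)) :=
    ⟨ContinuousLinearEquiv.ofFinrankEq (by simp)⟩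
  have hs : ContDiffOn ℝ ((⊤ : ℕ∞) : WithTop ℕ∞) θ W₁ :=
    (haW.mono (subset_closure.trans h₁)).congr hθ₁
  obtain ⟨g, hg, h2, h3, h4⟩ := rel_approx (a := θ ∘ e.symm) (C := e.symm ⁻¹' C)
    (A := e.symm ⁻¹' A) (O := e.symm ⁻¹' W₁) (θ.continuous.comp e.symm.continuous)
    (e.symm.toHomeomorph.isCompact_preimage.2 hC) (hA.isClosed.preimage e.symm.continuous)
    (hW₁.preimage e.symm.continuous) (fun x hx => hA₁ hx)
    (hs.comp e.symm.contDiff.contDiffOn fun x hx => hx) (fun x _ hx h0 => by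
      have h5 : (θ : E → Fin K → ℝ) =ᶠ[𝓝 (e.symm x)] a := by
        filter_upwards [hW₁.mem_nhds hx] with y hy using hθ₁ y hy
      rw [e.symm.comp_right_fderiv, h5.fderiv_eq]
      exact (hreg _ (h₁ (subset_closure hx)) (h5.eq_of_nhds.symm.trans h0)).comp e.symm.surjective)
    hε
  refine ⟨g ∘ e, hg.comp e.contDiff, fun x hx => ?_, fun x hx => ?_, fun x hx h0 => ?_⟩
  · have h5 := h2 (e x) (by rwa [mem_preimage, e.symm_apply_apply])
    rw [Function.comp_apply, e.symm_apply_apply, hθ' x (Or.inl hx)] at h5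
    exact h5.le
  · have h5 := h3 (e x) (by rwa [mem_preimage, e.symm_apply_apply])
    rw [Function.comp_apply, e.symm_apply_apply, hθ₁ x (hA₁ hx)] at h5
    exact h5
  · rw [e.comp_right_fderiv]
    exact (h4 (e x) (by rwa [mem_preimage, e.symm_apply_apply]) h0).comp e.surjective

end Vale.Agent.P263C39
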